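import Mathlib

set_option autoImplicit false

/-!
# P181, line GN, block Q3: slices (the Dixmier map of commuting derivations), abstract part
-/

namespace Vale.Agent.P181.GN.H180

open Finset

section abs

variable {R ι : Type} [CommRing R] [Algebra ℂ R] [Fintype ι]

/-- The operator `(1 / N!) Σ s_(i_1) .. s_(i_N) D_(i_1) .. D_(i_N)`. -/
noncomputable def T (s : ι → R) (D : ι → R →ₗ[ℂ] R) : ℕ → R →ₗ[ℂ] R
  | 0 => LinearMap.id
  | N + 1 => ((N + 1 : ℂ)⁻¹) • ∑ i, (LinearMap.mulLeft ℂ (s i)) ∘ₗ (T s D N) ∘ₗ (D i)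

variable {s : ι → R} {D : ι → R →ₗ[ℂ] R}

lemma T_zero (f : R) : T s D 0 f = f := rfl

lemma T_succ' (N : ℕ) (f : R) :
    T s D (N + 1) f = ((N + 1 : ℂ)⁻¹) • ∑ i, s i * T s D N (D i f) := by
  simp [T]

lemma sum_T (N : ℕ) (f : R) :
    ∑ i, s i * T s D N (D i f) = ((N : ℂ) + 1) • T s D (N + 1) f := by
  have h : ((N : ℂ) + 1) ≠ 0 := by exact_mod_cast Nat.succ_ne_zero N
  rw [T_succ', smul_smul, mul_inv_cancel₀ h, one_smul]

/-- `D_j T_(N+1) f = T_N (D_j f) + T_(N+1) (D_j f)`. -/
lemma D_T [DecidableEq ι] (hs : ∀ i j f, D j (s i * f) = (if i = j then f else 0) + s i * D j f)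
    (hc : ∀ i j f, D i (D j f) = D j (D i f)) (j : ι) :
    ∀ (N : ℕ) (f : R), D j (T s D (N + 1) f) = T s D N (D j f) + T s D (N + 1) (D j f) := by
  intro N
  induction N with
  | zero =>
    intro f
    rw [T_succ', T_succ', map_smul, map_sum]
    simp only [T_zero, hs, Finset.sum_add_distrib, Finset.sum_ite_eq', Finset.mem_univ, if_true]
    rw [smul_add]
    congr 1
    · simp
    · congr 1
      exact Finset.sum_congr rfl fun i _ => by rw [hc]
  | succ N ih =>
    intro f
    have h0 : ((N : ℂ) + 1) ≠ 0 := by exact_mod_cast Nat.succ_ne_zero N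
    have h1 : ((N : ℂ) + 1 + 1) ≠ 0 := by exact_mod_cast Nat.succ_ne_zero (N + 1)
    have e1 : D j (∑ i, s i * T s D (N + 1) (D i f)) =
        T s D (N + 1) (D j f) + (((N : ℂ) + 1) • T s D (N + 1) (D j f) +
          ((N : ℂ) + 1 + 1) • T s D (N + 1 + 1) (D j f)) := by
      rw [map_sum]
      simp only [hs, ih, Finset.sum_add_distrib, Finset.sum_ite_eq', Finset.mem_univ, if_true,
        mul_add]
      have a1 : ∑ i, s i * T s D N (D j (D i f)) = ((N : ℂ) + 1) • T s D (N + 1) (D j f) := by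
        rw [← sum_T]
        exact Finset.sum_congr rfl fun i _ => by rw [hc]
      have a2 : ∑ i, s i * T s D (N + 1) (D j (D i f)) =
          ((N : ℂ) + 1 + 1) • T s D (N + 1 + 1) (D j f) := by
        have := sum_T (s := s) (D := D) (N + 1) (D j f)
        push_cast at this
        rw [← this]
        exact Finset.sum_congr rfl fun i _ => by rw [hc]
      rw [a1, a2]
    rw [T_succ', map_smul, e1]
    have e2 : T s D (N + 1) (D j f) + (((N : ℂ) + 1) • T s D (N + 1) (D j f) +
          ((N : ℂ) + 1 + 1) • T s D (N + 1 + 1) (D j f)) =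
        ((N : ℂ) + 1 + 1) • (T s D (N + 1) (D j f) + T s D (N + 1 + 1) (D j f)) := by
      module
    rw [e2, smul_smul]
    push_cast
    rw [inv_mul_cancel₀ h1, one_smul]

/-- `T_N` commutes with an operator `E` for which `Σ s_i ⊗ D_i` is invariant. -/
lemma E_T {E : R →ₗ[ℂ] R} {c : ι → ι → ℂ}
    (hE : ∀ i f, E (s i * f) = (∑ k, c i k • s k) * f + s i * E f)
    (hD : ∀ i f, E (D i f) = D i (E f) - ∑ k, c k i • D k f) :
    ∀ (N : ℕ) (f : R), E (T s D N f) = T s D N (E f) := by
  intro N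
  induction N with
  | zero => intro f; rfl
  | succ N ih =>
    intro f
    rw [T_succ', T_succ', map_smul, map_sum]
    congr 1
    simp only [hE, ih, hD, map_sub, map_sum, map_smul, mul_sub, Finset.sum_add_distrib,
      Finset.sum_sub_distrib]
    have : ∑ i, (∑ k, c i k • s k) * T s D N (D i f) =
        ∑ i, s i * ∑ k, c k i • T s D N (D k f) := by
      simp only [Finset.sum_mul, Finset.mul_sum, smul_mul_assoc, mul_smul_comm]
      rw [Finset.sum_comm]
    rw [this]
    abel

/-- `T_N` kills what all products of `N` of the `D`'s kill. -/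
lemma T_eq_zero (F : ℕ → Set R) (h0 : ∀ f ∈ F 0, f = 0)
    (hF : ∀ N i f, f ∈ F (N + 1) → D i f ∈ F N) :
    ∀ (N : ℕ) (f : R), f ∈ F N → T s D N f = 0 := by
  intro N
  induction N with
  | zero => intro f hf; exact h0 f hf
  | succ N ih =>
    intro f hf
    rw [T_succ']
    simp [ih _ (hF N _ f hf)]

/-- The Dixmier map cut at `M`. -/
noncomputable def dix (s : ι → R) (D : ι → R →ₗ[ℂ] R) (M : ℕ) : R →ₗ[ℂ] R :=
  ∑ N ∈ Finset.range M, ((-1 : ℂ) ^ N) • T s D N

lemma dix_apply (M : ℕ) (f : R) :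
    dix s D M f = ∑ N ∈ Finset.range M, ((-1 : ℂ) ^ N) • T s D N f := by
  simp [dix]

lemma D_dix [DecidableEq ι]
    (hs : ∀ i j f, D j (s i * f) = (if i = j then f else 0) + s i * D j f)
    (hc : ∀ i j f, D i (D j f) = D j (D i f)) (j : ι) (M : ℕ) (f : R) :
    D j (dix s D (M + 1) f) = ((-1 : ℂ) ^ M) • T s D M (D j f) := by
  induction M with
  | zero => simp [dix_apply, T_zero]
  | succ M ih =>
    rw [dix_apply, Finset.sum_range_succ, ← dix_apply, map_add, ih, map_smul, D_T hs hc]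
    rw [smul_add, ← add_assoc, pow_succ, mul_neg, mul_one, neg_smul, neg_smul]
    abel

lemma E_dix {E : R →ₗ[ℂ] R} {c : ι → ι → ℂ}
    (hE : ∀ i f, E (s i * f) = (∑ k, c i k • s k) * f + s i * E f)
    (hD : ∀ i f, E (D i f) = D i (E f) - ∑ k, c k i • D k f) (M : ℕ) (f : R) :
    E (dix s D M f) = dix s D M (E f) := by
  simp only [dix_apply, map_sum, map_smul, E_T hE hD]

/-- An algebra map killing the slices sends `dix f` to the image of `f`. -/
lemma map_dix {R' : Type} [CommRing R'] [Algebra ℂ R'] (φ : R →ₐ[ℂ] R') (hφ : ∀ i, φ (s i) = 0)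
    (M : ℕ) (f : R) : φ (dix s D (M + 1) f) = φ f := by
  rw [dix_apply, Finset.sum_range_succ', map_add, map_sum]
  have : ∀ N, φ (T s D (N + 1) f) = 0 := by
    intro N
    rw [T_succ', map_smul, map_sum]
    simp [hφ]
  simp [this, T_zero]

end abs

end Vale.Agent.P181.GN.H180
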