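import Vale.Agent.P181.GN.Defs
import Vale.Agent.P181.GN.H180.Slice

set_option autoImplicit false

/-!
# P181, line GN, block Q3: the derivations of the letter ring
-/

open MvPolynomial

namespace Vale.Agent.P181.GN.H180

variable {k : ℕ}

/-- The degree of a letter in a row. -/
def cnt (p : Lt k) : Option (Fin k) → ℕ
  | none => p.1
  | some i => p.2 i

/-- The unit letters. -/
def un : Option (Fin k) → Lt k
  | none => (1, 0)
  | some i => (0, Pi.single i 1)

lemma cnt_none (p : Lt k) : cnt p none = p.1 := rfl

lemma cnt_some (p : Lt k) (i : Fin k) : cnt p (some i) = p.2 i := rfl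

lemma cnt_ext {p q : Lt k} (h : ∀ j, cnt p j = cnt q j) : p = q :=
  Prod.ext (h none) (funext fun i => h (some i))

lemma cnt_add (p q : Lt k) (j : Option (Fin k)) : cnt (p + q) j = cnt p j + cnt q j := by
  cases j <;> rfl

lemma cnt_sub (p q : Lt k) (j : Option (Fin k)) : cnt (p - q) j = cnt p j - cnt q j := by
  cases j <;> rfl

lemma cnt_un (i j : Option (Fin k)) : cnt (un i) j = if j = i then 1 else 0 := by
  cases i with
  | none => cases j <;> simp [cnt, un]
  | some i =>
    cases j with
    | none => simp [cnt, un]
    | some j => simp [cnt, un, Pi.single_apply]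

lemma sz_eq (p : Lt k) : sz p = ∑ j, cnt p j := by
  rw [sz, Fintype.sum_option]
  rfl

lemma sz_un (i : Option (Fin k)) : sz (un i : Lt k) = 1 := by
  rw [sz_eq]
  simp [cnt_un]

lemma sz_add (p q : Lt k) : sz (p + q) = sz p + sz q := by
  simp only [sz_eq, cnt_add, Finset.sum_add_distrib]

lemma sub_add_un {c : Lt k} {i : Option (Fin k)} (h : cnt c i ≠ 0) : c - un i + un i = c := by
  apply cnt_ext
  intro j
  simp only [cnt_add, cnt_sub, cnt_un]
  split_ifs with hj
  · subst hj; omega
  · omega

lemma sz_sub_un {c : Lt k} {i : Option (Fin k)} (h : cnt c i ≠ 0) : sz (c - un i) + 1 = sz c := by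
  conv_rhs => rw [← sub_add_un h]
  rw [sz_add, sz_un]

open scoped Classical in
/-- A letter at `xi = e_1`. -/
noncomputable def ev (d : Lt k) : Po k := if 2 ≤ sz d then X d else if d = un none then 1 else 0

/-- `CD_i`. -/
noncomputable def Dl (i : Option (Fin k)) : Derivation ℂ (Po k) (Po k) :=
  mkDerivation ℂ fun c => (cnt c i : ℂ) • ev (c - un i)

lemma Dl_X (i : Option (Fin k)) (c : Lt k) : Dl i (X c) = (cnt c i : ℂ) • ev (c - un i) :=
  mkDerivation_X _ _ _

lemma EU_X (r i : Fin k) (c : Lt k) :
    EU r i (X c) = (cnt c (some i) : ℂ) • X (c - un (some i) + un (some r)) := by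
  have h : c - un (some i) + un (some r) = (c.1, c.2 - Pi.single i 1 + Pi.single r 1) := by
    apply Prod.ext
    · simp [un]
    · rfl
  rw [h]
  exact mkDerivation_X _ _ _

lemma ev_big {d : Lt k} (h : 2 ≤ sz d) : ev d = X d := if_pos h

lemma ev_small {d : Lt k} (h : ¬ 2 ≤ sz d) (h' : d ≠ un none) : ev d = 0 := by
  rw [ev, if_neg h, if_neg h']

lemma ev_un : ev (un none : Lt k) = 1 := by
  rw [ev, if_neg (by rw [sz_un]; omega), if_pos rfl]

lemma Dl_ev (i : Option (Fin k)) (d : Lt k) : Dl i (ev d) = (cnt d i : ℂ) • ev (d - un i) := by
  by_cases h : 2 ≤ sz d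
  · rw [ev_big h, Dl_X]
  · have h2 : (cnt d i : ℂ) • ev (d - un i) = 0 := by
      by_cases h3 : cnt d i = 0
      · rw [h3, Nat.cast_zero, zero_smul]
      · have h4 := sz_sub_un h3
        rw [ev_small (by omega), smul_zero]
        intro h5
        rw [h5, sz_un] at h4
        omega
    rw [h2]
    by_cases h3 : d = un none
    · rw [h3, ev_un]; exact Derivation.map_one_eq_zero _
    · rw [ev_small h h3, map_zero]

lemma comm_Dl (i j : Option (Fin k)) (f : Po k) : Dl i (Dl j f) = Dl j (Dl i f) := by
  have h : ⁅(Dl i : Derivation ℂ (Po k) (Po k)), Dl j⁆ = 0 := by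
    apply derivation_ext
    intro c
    rw [Derivation.commutator_apply, Dl_X, Dl_X, Derivation.map_smul, Derivation.map_smul, Dl_ev,
      Dl_ev, Derivation.zero_apply, smul_smul, smul_smul]
    by_cases hij : i = j
    · subst hij; exact sub_self _
    · have h1 : cnt (c - un j) i = cnt c i := by
        rw [cnt_sub, cnt_un, if_neg hij]; rfl
      have h2 : cnt (c - un i) j = cnt c j := by
        rw [cnt_sub, cnt_un, if_neg (Ne.symm hij)]; rfl
      have h3 : c - un j - un i = c - un i - un j := by
        apply cnt_ext
        intro l
        simp only [cnt_sub]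
        omega
      rw [h1, h2, h3, mul_comm, sub_self]
  have := congrArg (fun D => D f) h
  simp only [Derivation.commutator_apply, Derivation.zero_apply] at this
  exact sub_eq_zero.1 this

/-- `[E_ri, CD_j] = - δ_jr CD_i`. -/
lemma comm_EU {r s : Fin k} (hrs : r ≠ s) (i : Option (Fin k)) (f : Po k) :
    EU r s (Dl i f) = Dl i (EU r s f) - (if i = some r then Dl (some s) f else 0) := by
  have hk : (none : Option (Fin k)) ≠ some r := by simp
  have hl : (none : Option (Fin k)) ≠ some s := by simp
  have hkl : some r ≠ some s := by simpa using hrs
  generalize hK : some r = K at *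
  generalize hL : some s = L at *
  have hEX : ∀ c : Lt k, EU r s (X c) = (cnt c L : ℂ) • X (c - un L + un K) := by
    intro c; rw [← hK, ← hL]; exact EU_X r s c
  have h : ⁅EU r s, Dl i⁆ = -(if i = K then Dl L else 0 : Derivation ℂ (Po k) (Po k)) := by
    apply derivation_ext
    intro c
    rw [Derivation.commutator_apply, Dl_X, hEX, Derivation.map_smul, Derivation.map_smul, Dl_X]
    have e0 : (-(if i = K then Dl L else 0 : Derivation ℂ (Po k) (Po k))) (X c) =
        -((if i = K then (cnt c L : ℂ) else 0) • ev (c - un L)) := by
      split_ifs
      · rw [Derivation.neg_apply, Dl_X]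
      · simp
    rw [e0]
    by_cases hc : cnt c L = 0
    · have h5 : ((cnt c i : ℂ)) • (EU r s) (ev (c - un i)) = 0 := by
        by_cases h6 : 2 ≤ sz (c - un i)
        · rw [ev_big h6, hEX]
          have : cnt (c - un i) L = 0 := by rw [cnt_sub, hc, Nat.zero_sub]
          rw [this, Nat.cast_zero, zero_smul, smul_zero]
        · by_cases h7 : c - un i = un none
          · rw [h7, ev_un, Derivation.map_one_eq_zero, smul_zero]
          · rw [ev_small h6 h7, map_zero, smul_zero]
      rw [h5, hc]
      simp
    · have hsum : sz (c - un L + un K) = sz c := by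
        rw [sz_add, sz_un, sz_sub_un hc]
      by_cases h6 : 3 ≤ sz c
      · have hcl : ev (c - un L) = X (c - un L) := ev_big (by have := sz_sub_un hc; omega)
        rw [hcl]
        have q1 : ((cnt c i : ℂ)) • (EU r s) (ev (c - un i)) =
            ((cnt c i : ℂ) * (cnt (c - un i) L : ℂ)) • X (c - un i - un L + un K) := by
          by_cases hi : cnt c i = 0
          · rw [hi, Nat.cast_zero, zero_smul, zero_mul, zero_smul]
          · rw [ev_big (by have := sz_sub_un hi; omega), hEX, smul_smul]
        have q2 : ((cnt c L : ℂ)) • ((cnt (c - un L + un K) i : ℂ) •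
            ev (c - un L + un K - un i)) =
            ((cnt c L : ℂ) * (cnt (c - un L + un K) i : ℂ)) • X (c - un L + un K - un i) := by
          by_cases hi : cnt (c - un L + un K) i = 0
          · rw [hi, Nat.cast_zero, zero_smul, smul_zero, mul_zero, zero_smul]
          · rw [ev_big (by have := sz_sub_un hi; omega), smul_smul]
        rw [q1, q2]
        by_cases hik : i = K
        · subst hik
          rw [if_pos rfl]
          have a1 : cnt (c - un i) L = cnt c L := by
            rw [cnt_sub, cnt_un, if_neg (Ne.symm hkl)]; rfl
          have a2 : cnt (c - un L + un i) i = cnt c i + 1 := by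
            rw [cnt_add, cnt_sub, cnt_un, cnt_un, if_neg hkl, if_pos rfl]; rfl
          have a3 : c - un L + un i - un i = c - un L := by
            apply cnt_ext; intro j; simp only [cnt_sub, cnt_add]; omega
          rw [a1, a2, a3]
          by_cases hi : cnt c i = 0
          · rw [hi]
            simp
          · have a4 : c - un i - un L + un i = c - un L := by
              apply cnt_ext
              intro j
              simp only [cnt_sub, cnt_add, cnt_un]
              by_cases hj : j = i
              · subst hj
                rw [if_pos rfl, if_neg hkl]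
                omega
              · rw [if_neg hj]
                omega
            rw [a4]
            push_cast
            module
        · rw [if_neg hik, zero_smul, neg_zero]
          by_cases hil : i = L
          · subst hil
            have a1 : cnt (c - un i) i = cnt c i - 1 := by
              rw [cnt_sub, cnt_un, if_pos rfl]
            have a2 : cnt (c - un i + un K) i = cnt c i - 1 := by
              rw [cnt_add, cnt_sub, cnt_un, cnt_un, if_pos rfl, if_neg hik, Nat.add_zero]
            have a3 : c - un i + un K - un i = c - un i - un i + un K := by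
              apply cnt_ext
              intro j
              simp only [cnt_sub, cnt_add, cnt_un]
              by_cases hj : j = i
              · subst hj
                rw [if_pos rfl, if_neg hik]
                omega
              · rw [if_neg hj]
                omega
            rw [a1, a2, a3, sub_self]
          · have a1 : cnt (c - un i) L = cnt c L := by
              rw [cnt_sub, cnt_un, if_neg (Ne.symm hil)]; rfl
            have a2 : cnt (c - un L + un K) i = cnt c i := by
              rw [cnt_add, cnt_sub, cnt_un, cnt_un, if_neg hil, if_neg hik]; rfl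
            have a3 : c - un L + un K - un i = c - un i - un L + un K := by
              apply cnt_ext
              intro j
              simp only [cnt_sub, cnt_add, cnt_un]
              by_cases hj : j = i
              · subst hj
                rw [if_pos rfl, if_neg hik, if_neg hil]
                omega
              · rw [if_neg hj]
                omega
            rw [a1, a2, a3, mul_comm, sub_self]
      · have q1 : ((cnt c i : ℂ)) • (EU r s) (ev (c - un i)) = 0 := by
          by_cases hi : cnt c i = 0
          · rw [hi, Nat.cast_zero, zero_smul]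
          · have h7 := sz_sub_un hi
            by_cases h8 : c - un i = un none
            · rw [h8, ev_un, Derivation.map_one_eq_zero, smul_zero]
            · rw [ev_small (by omega) h8, map_zero, smul_zero]
        rw [q1, zero_sub, neg_inj]
        by_cases hik : i = K
        · subst hik
          rw [if_pos rfl]
          have a2 : cnt (c - un L + un i) i = cnt c i + 1 := by
            rw [cnt_add, cnt_sub, cnt_un, cnt_un, if_neg hkl, if_pos rfl]; rfl
          have a3 : c - un L + un i - un i = c - un L := by
            apply cnt_ext; intro j; simp only [cnt_sub, cnt_add]; omega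
          rw [a2, a3]
          by_cases h9 : c - un L = un none
          · have : cnt c i = 0 := by
              have h10 : cnt (c - un L) i = cnt (un none : Lt k) i := by rw [h9]
              rw [cnt_sub, cnt_un, cnt_un, if_neg hkl, if_neg (Ne.symm hk)] at h10
              omega
            rw [this]
            simp
          · rw [ev_small (by have := sz_sub_un hc; omega) h9]
            simp
        · rw [if_neg hik, zero_smul]
          by_cases hi : cnt (c - un L + un K) i = 0
          · rw [hi, Nat.cast_zero, zero_smul, smul_zero]
          · have h7 := sz_sub_un hi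
            rw [ev_small (by omega), smul_zero, smul_zero]
            intro h8
            have h10 : cnt (c - un L + un K - un i) K = cnt (un none : Lt k) K := by rw [h8]
            rw [cnt_sub, cnt_add, cnt_sub, cnt_un, cnt_un, cnt_un, cnt_un, if_neg hkl, if_pos rfl,
              if_neg (Ne.symm hik), if_neg (Ne.symm hk)] at h10
            omega
  have := congrArg (fun D => D f) h
  simp only [Derivation.commutator_apply] at this
  rw [sub_eq_iff_eq_add] at this
  rw [this]
  split_ifs
  · rw [Derivation.neg_apply]; ring
  · simp

/-- The slices. -/
noncomputable def sl (i : Option (Fin k)) : Po k :=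
  (if i = none then (2 : ℂ)⁻¹ else 1) • X (un none + un i)

lemma Dl_sl (i j : Option (Fin k)) : Dl j (sl i) = if i = j then 1 else 0 := by
  rw [sl, Derivation.map_smul, Dl_X]
  by_cases hij : i = j
  · subst hij
    have a1 : un none + un i - un i = (un none : Lt k) := by
      apply cnt_ext; intro j; simp only [cnt_sub, cnt_add]; omega
    rw [if_pos rfl, a1, ev_un]
    by_cases hi : i = none
    · subst hi
      rw [if_pos rfl, cnt_add, cnt_un, if_pos rfl, smul_smul]
      norm_num
    · rw [if_neg hi, cnt_add, cnt_un, cnt_un, if_neg hi, if_pos rfl]
      simp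
  · rw [if_neg hij]
    by_cases hj : j = none
    · subst hj
      have a1 : un none + un i - un none = (un i : Lt k) := by
        apply cnt_ext; intro j; simp only [cnt_sub, cnt_add]; omega
      rw [a1, ev_small (by rw [sz_un]; omega), smul_zero, smul_zero]
      intro h
      have h10 : cnt (un i : Lt k) i = cnt (un none : Lt k) i := by rw [h]
      rw [cnt_un, cnt_un, if_pos rfl, if_neg hij] at h10
      omega
    · have : cnt (un none + un i : Lt k) j = 0 := by
        rw [cnt_add, cnt_un, cnt_un, if_neg hj, if_neg (Ne.symm hij)]
      rw [this, Nat.cast_zero, zero_smul, smul_zero]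

lemma EU_sl {r s : Fin k} (i : Option (Fin k)) :
    EU r s (sl i) = if i = some s then sl (some r) else 0 := by
  rw [sl, Derivation.map_smul, EU_X]
  by_cases hil : i = some s
  · subst hil
    have a1 : cnt (un none + un (some s) : Lt k) (some s) = 1 := by
      rw [cnt_add, cnt_un, cnt_un, if_neg (by simp), if_pos rfl]
    have a2 : un none + un (some s) - un (some s) + un (some r) =
        (un none + un (some r) : Lt k) := by
      apply cnt_ext; intro j; simp only [cnt_sub, cnt_add]; omega
    rw [if_pos rfl, if_neg (by simp), a1, a2, sl, if_neg (by simp)]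
    simp
  · have a1 : cnt (un none + un i : Lt k) (some s) = 0 := by
      rw [cnt_add, cnt_un, cnt_un, if_neg (by simp), if_neg (Ne.symm hil)]
    rw [if_neg hil, a1, Nat.cast_zero, zero_smul, smul_zero]

lemma hs_Dl (i j : Option (Fin k)) (f : Po k) :
    Dl j (sl i * f) = (if i = j then f else 0) + sl i * Dl j f := by
  rw [Derivation.leibniz, Dl_sl, smul_eq_mul, smul_eq_mul, add_comm (sl i * _)]
  congr 1
  split_ifs
  · rw [mul_one]
  · rw [mul_zero]

end Vale.Agent.P181.GN.H180
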