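import Vale.Agent.P181.GN.H180.Wt

set_option autoImplicit false

/-!
# P181, line GN, block Q3: the slices
-/

open MvPolynomial

namespace Vale.Agent.P181.GN.H180

variable {k : ℕ}

lemma fd_UH {P : (Lt k →₀ ℕ) → Prop} (hP : {v | P v}.Finite) : FiniteDimensional ℂ (UH P) := by
  have : Finite {v // P v} := hP.to_subtype
  let L : UH P →ₗ[ℂ] ({v // P v} → ℂ) :=
    LinearMap.pi fun v => (lcoeff ℂ v.1) ∘ₗ (UH P).subtype
  refine FiniteDimensional.of_injective L ?_
  rw [injective_iff_map_eq_zero]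
  intro f hf
  apply Subtype.ext
  ext v
  rw [ZeroMemClass.coe_zero, coeff_zero]
  by_contra h
  exact h (congrFun hf ⟨v, f.2.1 v h⟩)

lemma single_sum_us (v : Lt k →₀ ℕ) :
    ∑ p ∈ v.support, v p * sz p = xs v + ∑ i, us v i := by
  simp only [xs, us, Finsupp.sum]
  rw [Finset.sum_comm, ← Finset.sum_add_distrib]
  refine Finset.sum_congr rfl fun p _ => ?_
  rw [sz, mul_add, Finset.mul_sum]

lemma finite_gPP (tau : Fin k → ℕ) (y m0 : ℕ) : {v : Lt k →₀ ℕ | gPP tau y m0 v}.Finite := by
  classical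
  obtain ⟨B, hB⟩ : ∃ B, B = 2 * (m0 + ∑ i, tau i) := ⟨_, rfl⟩
  have hS : {p : Lt k | sz p ≤ B}.Finite := by
    refine (Set.finite_Iic ((B, fun _ => B) : Lt k)).subset fun p hp => ?_
    have hp' : sz p ≤ B := hp
    rw [sz] at hp'
    refine ⟨?_, fun i => ?_⟩
    · change p.1 ≤ B
      omega
    · change p.2 i ≤ B
      have := Finset.single_le_sum (f := p.2) (fun _ _ => Nat.zero_le _) (Finset.mem_univ i)
      omega
  refine (Set.finite_Iic (∑ p ∈ hS.toFinset, Finsupp.single p B)).subset fun v hv => ?_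
  obtain ⟨h1, h2, h3⟩ : gPP tau y m0 v := hv
  have e1 := single_sum_us v
  have e2 : ∑ i, us v i = ∑ i, tau i := Finset.sum_congr rfl fun i _ => h3 i
  have e3 : 2 * ln v ≤ ∑ p ∈ v.support, v p * sz p := by
    rw [ln, Finsupp.sum, Finset.mul_sum]
    refine Finset.sum_le_sum fun p hp => ?_
    have := h1 p hp
    nlinarith [Nat.zero_le (v p)]
  have e4 : ln v ≤ m0 + ∑ i, tau i := by omega
  have e5 : ∑ p ∈ v.support, v p * sz p ≤ B := by omega
  intro p
  by_cases hp : v p = 0
  · rw [hp]
    exact Nat.zero_le _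
  · have hp' : p ∈ v.support := Finsupp.mem_support_iff.2 hp
    have e6 : v p * sz p ≤ B :=
      (Finset.single_le_sum (f := fun p => v p * sz p) (fun _ _ => Nat.zero_le _) hp').trans e5
    have e7 := h1 p hp'
    have e8 : sz p ≤ B := le_trans (Nat.le_mul_of_pos_left _ (Nat.pos_of_ne_zero hp)) e6
    have e9 : v p ≤ B := le_trans (Nat.le_mul_of_pos_right _ (by omega)) e6
    have e10 : (∑ q ∈ hS.toFinset, Finsupp.single q B) p = B := by
      rw [Finsupp.finsetSum_apply, Finset.sum_eq_single p]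
      · exact Finsupp.single_eq_same
      · intro q _ hq
        exact Finsupp.single_eq_of_ne (Ne.symm hq)
      · intro h
        exact absurd (hS.mem_toFinset.2 e8) h
    rw [e10]
    exact e9

/-- The degrees. -/
def nn (tau : Fin k → ℕ) (y m0 : ℕ) : Option (Fin k) → ℤ
  | none => (m0 : ℤ) - y
  | some i => tau i

lemma weight_none (v : Lt k →₀ ℕ) : Finsupp.weight wt v none = (xs v : ℤ) - ln v := by
  rw [Finsupp.weight_apply, Finsupp.sum, xs, ln, Finsupp.sum, Finsupp.sum, Finset.sum_apply]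
  push_cast
  rw [← Finset.sum_sub_distrib]
  refine Finset.sum_congr rfl fun p _ => ?_
  change (v p) • wt p none = _
  simp only [wt, cnt, if_pos, nsmul_eq_mul]
  ring

lemma weight_some (v : Lt k →₀ ℕ) (i : Fin k) : Finsupp.weight wt v (some i) = us v i := by
  rw [Finsupp.weight_apply, Finsupp.sum, us, Finsupp.sum, Finset.sum_apply]
  push_cast
  refine Finset.sum_congr rfl fun p _ => ?_
  change (v p) • wt p (some i) = _
  simp [wt, cnt]

lemma weight_iff (tau : Fin k → ℕ) (y m0 : ℕ) (v : Lt k →₀ ℕ) :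
    Finsupp.weight wt v = nn tau y m0 ↔ xs v + y = m0 + ln v ∧ ∀ i, us v i = tau i := by
  constructor
  · intro h
    refine ⟨?_, fun i => ?_⟩
    · have := congrFun h none
      rw [weight_none] at this
      simp only [nn] at this
      omega
    · have := congrFun h (some i)
      rw [weight_some] at this
      simp only [nn] at this
      exact_mod_cast this
  · rintro ⟨h1, h2⟩
    funext j
    cases j with
    | none => rw [weight_none]; simp only [nn]; omega
    | some i => rw [weight_some, h2 i]; rfl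

lemma gPP_iff {tau : Fin k → ℕ} {y m0 : ℕ} {f : Po k} :
    (∀ v, coeff v f ≠ 0 → gPP tau y m0 v) ↔
      f ∈ Bg k ∧ IsWeightedHomogeneous wt f (nn tau y m0) := by
  constructor
  · intro h
    exact ⟨mem_Bg.2 fun v hv => (h v hv).1, fun v hv => (weight_iff _ _ _ _).2 (h v hv).2⟩
  · rintro ⟨h1, h2⟩ v hv
    exact ⟨mem_Bg.1 h1 v hv, (weight_iff _ _ _ _).1 (h2 hv)⟩

open scoped Classical in
/-- The components with more than `V` letters. -/
noncomputable def cut (V : ℕ) : Po k →ₗ[ℂ] Po k :=
  (basisMonomials (Lt k) ℂ).constr ℂ fun v => if V < ln v then monomial v 1 else 0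

open scoped Classical in
lemma cut_monomial (V : ℕ) (v : Lt k →₀ ℕ) (c : ℂ) :
    cut V (monomial v c) = if V < ln v then monomial v c else 0 := by
  have h1 : (monomial v c : Po k) = c • basisMonomials (Lt k) ℂ v := by
    rw [coe_basisMonomials, smul_monomial, smul_eq_mul, mul_one]
  rw [h1, map_smul, cut, Module.Basis.constr_basis]
  split_ifs
  · rw [coe_basisMonomials]
  · rw [smul_zero]

open scoped Classical in
lemma coeff_cut (V : ℕ) (f : Po k) (u : Lt k →₀ ℕ) :
    coeff u (cut V f) = if V < ln u then coeff u f else 0 := by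
  induction f using MvPolynomial.induction_on' with
  | monomial v c =>
    rw [cut_monomial]
    by_cases h : v = u
    · subst h
      split_ifs
      · rfl
      · exact coeff_zero _
    · have h2 : coeff u (monomial v c : Po k) = 0 := by rw [coeff_monomial, if_neg h]
      rw [h2]
      split_ifs
      · exact h2
      · exact h2
      · exact coeff_zero _
      · exact coeff_zero _
  | add p q hp hq =>
    rw [map_add, coeff_add, coeff_add, hp, hq]
    split_ifs
    · rfl
    · exact add_zero _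

lemma weight_one (v : Lt k →₀ ℕ) : Finsupp.weight (fun _ : Lt k => (1 : ℤ)) v = ln v := by
  rw [Finsupp.weight_apply, ln, Finsupp.sum, Finsupp.sum]
  push_cast
  simp

lemma EU_cut (V : ℕ) (r s : Fin k) (f : Po k) : EU r s (cut V f) = cut V (EU r s f) := by
  classical
  induction f using MvPolynomial.induction_on' with
  | monomial v c =>
    have h1 : IsWeightedHomogeneous (fun _ : Lt k => (1 : ℤ)) (EU r s (monomial v c)) (ln v + 0) := by
      change IsWeightedHomogeneous _ (mkDerivation ℂ (fun p : Lt k => (p.2 s : ℂ) •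
        (X (p.1, p.2 - Pi.single s 1 + Pi.single r 1) : Po k)) (monomial v c)) _
      refine der_hom (w := fun _ : Lt k => (1 : ℤ)) (δ := 0) (n := (ln v : ℤ)) (fun p => ?_)
        (isWeightedHomogeneous_monomial (R := ℂ) (fun _ : Lt k => (1 : ℤ)) v c (weight_one v))
      rw [add_zero]
      exact smul_hom _ (isWeightedHomogeneous_X ℂ _ _)
    rw [cut_monomial]
    ext u
    rw [coeff_cut]
    by_cases hu : coeff u (EU r s (monomial v c)) = 0
    · rw [hu]
      split_ifs
      · exact hu
      · exact hu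
      · rw [map_zero, coeff_zero]
      · rw [map_zero, coeff_zero]
    · have h2 := h1 hu
      rw [weight_one, add_zero] at h2
      have h3 : ln u = ln v := by exact_mod_cast h2
      rw [h3]
      split_ifs
      · rfl
      · rw [map_zero, coeff_zero]
  | add p q hp hq => rw [map_add, map_add, map_add, map_add, hp, hq]

/-- The kernel of the translations. -/
noncomputable abbrev KD (k : ℕ) : Submodule ℂ (Po k) :=
  LinearMap.ker (CD0 (k := k)).toLinearMap ⊓ ⨅ i : Fin k, LinearMap.ker (CD i).toLinearMap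

lemma mem_KD {f : Po k} : f ∈ KD k ↔ CD0 f = 0 ∧ ∀ i, CD i f = 0 := by
  simp only [KD, Submodule.mem_inf, LinearMap.mem_ker, Submodule.mem_iInf]
  rfl

/-- The evaluation of the slices at zero. -/
noncomputable def ph (k : ℕ) : Po k →ₐ[ℂ] Po k := by
  classical
  exact aeval fun p => if ∃ i, p = un none + un i then 0 else X p

lemma ph_sl (i : Option (Fin k)) : ph k (sl i) = 0 := by
  classical
  have h : ph k (X (un none + un i)) = 0 := by
    rw [ph, aeval_X]
    exact if_pos ⟨i, rfl⟩
  rw [sl, map_smul, h, smul_zero]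

lemma ph_eq {f : Po k} (hf : ∀ v, coeff v f ≠ 0 → ∀ p ∈ v.support, 2 ≤ sz p ∧ (sz p = 2 → p.1 = 0)) :
    ph k f = f := by
  classical
  have h : ∀ p : Lt k, 2 ≤ sz p ∧ (sz p = 2 → p.1 = 0) → ph k (X p) = X p := by
    intro p hp
    rw [ph, aeval_X, if_neg]
    rintro ⟨i, hi⟩
    have h1 : sz p = 2 := by rw [hi, sz_add, sz_un, sz_un]
    have h2 := hp.2 h1
    have h3 : cnt p none = 0 := h2
    rw [hi, cnt_add, cnt_un, if_pos rfl] at h3
    omega
  have hs : f ∈ supported ℂ {p : Lt k | 2 ≤ sz p ∧ (sz p = 2 → p.1 = 0)} := by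
    rw [mem_supported]
    intro p hp
    obtain ⟨v, hv, hpv⟩ := (mem_vars_iff_mem_support p).1 (Finset.mem_coe.1 hp)
    exact hf v (mem_support_iff.1 hv) p hpv
  have key : ∀ g ∈ supported ℂ {p : Lt k | 2 ≤ sz p ∧ (sz p = 2 → p.1 = 0)}, ph k g = g := by
    intro g hg
    rw [supported_eq_adjoin_X] at hg
    induction hg using Algebra.adjoin_induction with
    | mem x hx =>
      obtain ⟨p, hp, rfl⟩ := hx
      exact h p hp
    | algebraMap r => exact (ph k).commutes r
    | add x y hx' hy' hx hy => rw [map_add, hx, hy]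
    | mul x y hx' hy' hx hy => rw [map_mul, hx, hy]
  exact key f hs

theorem q3 : Q3 := by
  classical
  intro k V y m0 tau
  -- the spaces
  have hgB : ∀ v, gBB tau y m0 v → gPP tau y m0 v := fun v hv =>
    ⟨fun p hp => (hv.1 p hp).1, hv.2⟩
  have fdP : FiniteDimensional ℂ (UH (gPP tau y m0)) := fd_UH (finite_gPP tau y m0)
  obtain ⟨B, hB⟩ : ∃ B, B = m0 + ∑ i, tau i + 1 := ⟨_, rfl⟩
  -- the map into the kernel
  have hmap : ∀ f ∈ UH (gBB tau y m0), dix sl DL (B + 1) f ∈ UH (gPP tau y m0) ⊓ KD k := by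
    intro f hf
    have hf1 := gPP_iff.1 fun v hv => hgB v (hf.1 v hv)
    have hfil : f ∈ Fil (k := k) (B + 1) := by
      refine ⟨hf1.1, _, hf1.2, ?_⟩
      rw [Fintype.sum_option]
      simp only [nn]
      rw [hB]
      push_cast
      omega
    refine ⟨⟨gPP_iff.2 ⟨dix_mem _ hf1.1, dix_hom _ hf1.2⟩, fun r s hrs => ?_⟩, ?_⟩
    · rw [EU_dix hrs.ne, hf.2 r s hrs, map_zero]
    · refine mem_KD.2 ⟨?_, fun i => ?_⟩
      · rw [CD0_eq (dix_mem _ hf1.1), Dl_dix hfil]
      · rw [CD_eq i (dix_mem _ hf1.1), Dl_dix hfil]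
  have hinj : ∀ f ∈ UH (gBB tau y m0), dix sl DL (B + 1) f = 0 → f = 0 := by
    intro f hf h0
    have h1 := map_dix (s := sl) (D := DL) (ph k) ph_sl B f
    rw [h0, map_zero, ph_eq fun v hv => (hf.1 v hv).1] at h1
    exact h1.symm
  have r1 : Module.finrank ℂ (UH (gBB tau y m0)) ≤
      Module.finrank ℂ ↥(UH (gPP tau y m0) ⊓ KD k) := by
    refine LinearMap.finrank_le_finrank_of_injective
      (f := (dix sl DL (B + 1)).restrict hmap) ?_
    rw [injective_iff_map_eq_zero]
    intro f hf
    apply Subtype.ext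
    exact hinj f.1 f.2 (congrArg Subtype.val hf)
  -- the cut
  have hcut : ∀ f ∈ UH (gPP tau y m0) ⊓ KD k,
      cut V f ∈ UH (fun v : Lt k →₀ ℕ => gPP tau y m0 v ∧ V < ln v) := by
    intro f hf
    refine ⟨fun v hv => ?_, fun r s hrs => ?_⟩
    · rw [coeff_cut] at hv
      by_cases h : V < ln v
      · rw [if_pos h] at hv
        exact ⟨hf.1.1 v hv, h⟩
      · rw [if_neg h] at hv
        exact absurd rfl hv
    · rw [EU_cut, hf.1.2 r s hrs, map_zero]
  have fd1 : FiniteDimensional ℂ (UH (fun v : Lt k →₀ ℕ => gPP tau y m0 v ∧ V < ln v)) :=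
    fd_UH ((finite_gPP tau y m0).subset fun v hv => hv.1)
  have fd2 : FiniteDimensional ℂ (KK V tau y m0) :=
    Submodule.finiteDimensional_of_le (S₂ := UH (gPP tau y m0)) fun f hf =>
      ⟨fun v hv => (hf.1.1 v hv).1, hf.1.2⟩
  obtain ⟨C, hC⟩ : ∃ C, C = (cut V).restrict hcut := ⟨_, rfl⟩
  have hCv : ∀ g, (C g : Po k) = cut V g.1 := by
    intro g
    rw [hC]
    rfl
  have r2 := LinearMap.finrank_range_add_finrank_ker C
  have r3 : Module.finrank ℂ (LinearMap.range C) ≤
      Module.finrank ℂ (UH (fun v : Lt k →₀ ℕ => gPP tau y m0 v ∧ V < ln v)) :=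
    Submodule.finrank_le _
  have r4 : Module.finrank ℂ (LinearMap.ker C) ≤ Module.finrank ℂ (KK V tau y m0) := by
    have hk : ∀ f : ↥(LinearMap.ker C), (f.1.1 : Po k) ∈ KK V tau y m0 := by
      intro f
      have h1 : cut V f.1.1 = 0 := by
        have h2 : C f.1 = 0 := f.2
        rw [← hCv f.1, h2]
        rfl
      refine ⟨⟨fun v hv => ⟨f.1.2.1.1 v hv, ?_⟩, f.1.2.1.2⟩, f.1.2.2⟩
      by_contra h
      have h3 := coeff_cut V f.1.1 v
      rw [h1, coeff_zero, if_pos (by omega)] at h3
      exact hv h3.symm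
    refine LinearMap.finrank_le_finrank_of_injective (f :=
      LinearMap.codRestrict (KK V tau y m0)
        ((UH (gPP tau y m0) ⊓ KD k).subtype ∘ₗ (LinearMap.ker C).subtype) hk) ?_
    intro f g hfg
    apply Subtype.ext
    apply Subtype.ext
    exact congrArg (fun x : ↥(KK V tau y m0) => (x : Po k)) hfg
  omega

end Vale.Agent.P181.GN.H180
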