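import Vale.Agent.P181.GN.H180.Conc

set_option autoImplicit false

/-!
# P181, line GN, block Q3: degrees, letters of size at least two, the cut by the number of letters
-/

open MvPolynomial

namespace Vale.Agent.P181.GN.H180

section gen

variable {σ M : Type} [AddCommGroup M]

/-- A derivation of degree `δ`. -/
lemma der_hom {w : σ → M} {δ : M} {g : σ → MvPolynomial σ ℂ}
    (hg : ∀ p, IsWeightedHomogeneous w (g p) (w p + δ)) {f : MvPolynomial σ ℂ} {n : M}
    (hf : IsWeightedHomogeneous w f n) :
    IsWeightedHomogeneous w (mkDerivation ℂ g f) (n + δ) := by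
  classical
  rw [f.as_sum, map_sum]
  apply IsWeightedHomogeneous.sum
  intro s hs
  have hsn : Finsupp.weight w s = n := hf (mem_support_iff.1 hs)
  rw [mkDerivation_monomial]
  refine (weightedHomogeneousSubmodule ℂ w (n + δ)).smul_mem _ ?_
  refine (weightedHomogeneousSubmodule ℂ w (n + δ)).sum_mem fun p hp => ?_
  have hp' : s p ≠ 0 := Finsupp.mem_support_iff.1 hp
  rw [mem_weightedHomogeneousSubmodule]
  change IsWeightedHomogeneous w (monomial (s - Finsupp.single p 1) (s p : ℂ) * g p) (n + δ)
  have h1 : n + δ = Finsupp.weight w (s - Finsupp.single p 1) + (w p + δ) := by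
    rw [← hsn, ← Finsupp.weight_sub_single_add hp']
    abel
  rw [h1]
  exact (isWeightedHomogeneous_monomial w _ _ rfl).mul (hg p)

lemma smul_hom {w : σ → M} {f : MvPolynomial σ ℂ} {n : M} (c : ℂ)
    (hf : IsWeightedHomogeneous w f n) : IsWeightedHomogeneous w (c • f) n :=
  (weightedHomogeneousSubmodule ℂ w n).smul_mem c hf

end gen

variable {k : ℕ}

/-- The degrees of a letter, the grade `∑ (j - 1)` in row one. -/
def wt (p : Lt k) (j : Option (Fin k)) : ℤ := (cnt p j : ℤ) - if j = none then 1 else 0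

lemma ev_hom (d : Lt k) : IsWeightedHomogeneous wt (ev d) (wt d) := by
  by_cases h : 2 ≤ sz d
  · rw [ev_big h]
    exact isWeightedHomogeneous_X ℂ wt d
  · by_cases h' : d = un none
    · rw [h', ev_un]
      have : wt (un none : Lt k) = 0 := by
        funext j
        simp only [wt, cnt_un, Pi.zero_apply]
        split_ifs <;> simp
      rw [this]
      exact isWeightedHomogeneous_one ℂ wt
    · rw [ev_small h h']
      exact isWeightedHomogeneous_zero ℂ wt _

lemma wt_sub {c : Lt k} {i : Option (Fin k)} (h : cnt c i ≠ 0) :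
    wt (c - un i) = wt c + -(Pi.single i (1 : ℤ)) := by
  funext j
  simp only [wt, cnt_sub, cnt_un, Pi.add_apply, Pi.neg_apply, Pi.single_apply]
  by_cases hj : j = i
  · subst hj
    rw [if_pos rfl, if_pos rfl]
    omega
  · rw [if_neg hj, if_neg hj]
    omega

lemma Dl_hom (i : Option (Fin k)) {f : Po k} {n : Option (Fin k) → ℤ}
    (hf : IsWeightedHomogeneous wt f n) :
    IsWeightedHomogeneous wt (Dl i f) (n + -(Pi.single i (1 : ℤ))) := by
  refine der_hom (fun c => ?_) hf
  by_cases h : cnt c i = 0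
  · rw [h, Nat.cast_zero, zero_smul]
    exact isWeightedHomogeneous_zero ℂ wt _
  · rw [← wt_sub h]
    exact smul_hom _ (ev_hom _)

lemma sl_hom (i : Option (Fin k)) : IsWeightedHomogeneous wt (sl i) (Pi.single i (1 : ℤ)) := by
  have h : wt (un none + un i : Lt k) = Pi.single i (1 : ℤ) := by
    funext j
    simp only [wt, cnt_add, cnt_un, Pi.single_apply]
    split_ifs <;> simp
  rw [← h]
  exact smul_hom _ (isWeightedHomogeneous_X ℂ wt _)

/-- The linear maps. -/
noncomputable abbrev DL (i : Option (Fin k)) : Po k →ₗ[ℂ] Po k := (Dl i).toLinearMap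

lemma DL_apply (i : Option (Fin k)) (f : Po k) : DL i f = Dl i f := rfl

lemma T_hom : ∀ (N : ℕ) (f : Po k) (n : Option (Fin k) → ℤ), IsWeightedHomogeneous wt f n →
    IsWeightedHomogeneous wt (H180.T sl DL N f) n := by
  intro N
  induction N with
  | zero => intro f n hf; exact hf
  | succ N ih =>
    intro f n hf
    rw [T_succ']
    apply smul_hom
    apply IsWeightedHomogeneous.sum
    intro i _
    have h1 := (sl_hom i).mul (ih _ _ (Dl_hom i hf))
    have h2 : (Pi.single i (1 : ℤ) : Option (Fin k) → ℤ) + (n + -(Pi.single i (1 : ℤ))) = n := by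
      abel
    rw [h2] at h1
    exact h1

lemma dix_hom (N : ℕ) {f : Po k} {n : Option (Fin k) → ℤ} (hf : IsWeightedHomogeneous wt f n) :
    IsWeightedHomogeneous wt (dix sl DL N f) n := by
  rw [dix_apply]
  apply IsWeightedHomogeneous.sum
  intro i _
  exact smul_hom _ (T_hom _ _ _ hf)

/-- The polynomials in the letters of size at least two. -/
noncomputable abbrev Bg (k : ℕ) : Subalgebra ℂ (Po k) := supported ℂ {p : Lt k | 2 ≤ sz p}

lemma ev_mem (d : Lt k) : ev d ∈ Bg k := by
  by_cases h : 2 ≤ sz d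
  · rw [ev_big h]
    exact (X_mem_supported (R := ℂ)).2 h
  · by_cases h' : d = un none
    · rw [h', ev_un]
      exact one_mem _
    · rw [ev_small h h']
      exact zero_mem _

lemma Dl_mem (i : Option (Fin k)) {f : Po k} (hf : f ∈ Bg k) : Dl i f ∈ Bg k := by
  rw [Bg, supported_eq_adjoin_X] at hf
  induction hf using Algebra.adjoin_induction with
  | mem x hx =>
    obtain ⟨p, _, rfl⟩ := hx
    rw [Dl_X]
    exact (Bg k).smul_mem (ev_mem _) _
  | algebraMap r => rw [Derivation.map_algebraMap]; exact zero_mem _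
  | add x y _ _ hx hy => rw [map_add]; exact add_mem hx hy
  | mul x y hx' hy' hx hy =>
    rw [Derivation.leibniz]
    rw [← supported_eq_adjoin_X] at hx' hy'
    exact add_mem (mul_mem hx' hy) (mul_mem hy' hx)

lemma sl_mem (i : Option (Fin k)) : sl i ∈ Bg k := by
  refine (Bg k).smul_mem ((X_mem_supported (R := ℂ)).2 ?_) _
  change 2 ≤ sz _
  rw [sz_add, sz_un, sz_un]

lemma T_mem : ∀ (N : ℕ) (f : Po k), f ∈ Bg k → H180.T sl DL N f ∈ Bg k := by
  intro N
  induction N with
  | zero => intro f hf; exact hf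
  | succ N ih =>
    intro f hf
    rw [T_succ']
    exact (Bg k).smul_mem (sum_mem fun i _ => mul_mem (sl_mem i) (ih _ (Dl_mem i hf))) _

lemma dix_mem (N : ℕ) {f : Po k} (hf : f ∈ Bg k) : dix sl DL N f ∈ Bg k := by
  rw [dix_apply]
  exact sum_mem fun i _ => (Bg k).smul_mem (T_mem _ _ hf) _

lemma sum_wt (p : Lt k) : ∑ j, wt p j = (sz p : ℤ) - 1 := by
  simp only [wt, Finset.sum_sub_distrib]
  rw [sz_eq]
  simp

lemma mem_Bg {f : Po k} : f ∈ Bg k ↔ ∀ v, coeff v f ≠ 0 → ∀ p ∈ v.support, 2 ≤ sz p := by
  rw [mem_supported]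
  constructor
  · intro h v hv p hp
    exact h (Finset.mem_coe.2 ((mem_vars_iff_mem_support p).2 ⟨v, mem_support_iff.2 hv, hp⟩))
  · intro h p hp
    obtain ⟨v, hv, hpv⟩ := (mem_vars_iff_mem_support p).1 (Finset.mem_coe.1 hp)
    exact h v (mem_support_iff.1 hv) p hpv

/-- The filtration. -/
def Fil (N : ℕ) : Set (Po k) :=
  {f | f ∈ Bg k ∧ ∃ n : Option (Fin k) → ℤ, IsWeightedHomogeneous wt f n ∧ ∑ j, n j < N}

lemma Fil_zero (f : Po k) (hf : f ∈ Fil (k := k) 0) : f = 0 := by
  obtain ⟨h1, n, h2, h3⟩ := hf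
  by_contra h
  obtain ⟨v, hv⟩ := (ne_zero_iff).1 h
  have h4 : Finsupp.weight wt v = n := h2 hv
  have h5 : ∑ j, n j = ∑ p ∈ v.support, (v p : ℤ) * ((sz p : ℤ) - 1) := by
    rw [← h4, Finsupp.weight_apply, Finsupp.sum]
    simp only [Finset.sum_apply, Pi.smul_apply]
    rw [Finset.sum_comm]
    refine Finset.sum_congr rfl fun p _ => ?_
    simp only [nsmul_eq_mul, ← Finset.mul_sum, sum_wt]
  have h6 : 0 ≤ ∑ j, n j := by
    rw [h5]
    refine Finset.sum_nonneg fun p hp => mul_nonneg (Nat.cast_nonneg _) ?_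
    have := mem_Bg.1 h1 v hv p hp
    omega
  rw [Nat.cast_zero] at h3
  omega

lemma Fil_succ (N : ℕ) (i : Option (Fin k)) (f : Po k) (hf : f ∈ Fil (k := k) (N + 1)) :
    DL i f ∈ Fil (k := k) N := by
  obtain ⟨h1, n, h2, h3⟩ := hf
  refine ⟨Dl_mem i h1, _, Dl_hom i h2, ?_⟩
  have : ∑ j, (n + -(Pi.single i (1 : ℤ)) : Option (Fin k) → ℤ) j = ∑ j, n j - 1 := by
    simp only [Pi.add_apply, Pi.neg_apply, Finset.sum_add_distrib, Finset.sum_neg_distrib,
      Finset.sum_pi_single', Finset.mem_univ, if_true]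
    rfl
  rw [this]
  push_cast at h3
  omega

lemma Dl_dix {f : Po k} {B : ℕ} (hf : f ∈ Fil (k := k) (B + 1)) (j : Option (Fin k)) :
    Dl j (dix sl DL (B + 1) f) = 0 := by
  classical
  have h := D_dix (s := sl) (D := DL) (fun i j f => hs_Dl i j f) (fun i j f => comm_Dl i j f) j B f
  have h2 : H180.T sl DL B (DL j f) = 0 :=
    T_eq_zero Fil Fil_zero Fil_succ B _ (Fil_succ B j f hf)
  rw [h2, smul_zero] at h
  exact h

lemma EU_dix {r s : Fin k} (hrs : r ≠ s) (N : ℕ) (f : Po k) :
    EU r s (dix sl DL N f) = dix sl DL N (EU r s f) := by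
  classical
  refine E_dix (s := sl) (D := DL) (E := (EU r s).toLinearMap)
    (c := fun i j => if i = some s ∧ j = some r then 1 else 0) ?_ ?_ N f
  · intro i f
    have h1 : ∑ j, (if i = some s ∧ j = some r then (1 : ℂ) else 0) • sl j =
        if i = some s then sl (some r) else 0 := by
      by_cases hi : i = some s
      · simp [hi, ite_smul]
      · simp [hi]
    rw [h1]
    change EU r s (sl i * f) = _ + sl i * EU r s f
    rw [Derivation.leibniz, EU_sl, smul_eq_mul, smul_eq_mul, add_comm]
    congr 1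
    exact mul_comm _ _
  · intro i f
    have h1 : ∑ j, (if j = some s ∧ i = some r then (1 : ℂ) else 0) • DL j f =
        if i = some r then Dl (some s) f else 0 := by
      by_cases hi : i = some r
      · simp [hi, ite_smul]
      · simp [hi]
    rw [h1]
    exact comm_EU hrs i f

lemma CD0_eq {f : Po k} (hf : f ∈ Bg k) : CD0 f = Dl none f := by
  apply derivation_eq_of_forall_mem_vars
  intro p hp
  have h2 : 2 ≤ sz p := (mem_supported.1 hf) (Finset.mem_coe.2 hp)
  rw [Dl_X, CD0, mkDerivation_X, cnt_none]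
  have h3 : p - un none = (p.1 - 1, p.2) := by
    apply Prod.ext
    · rfl
    · simp [un]
  by_cases hs : sz p = 2
  · rw [if_pos hs]
    by_cases h1 : p.1 = 2
    · rw [if_pos h1, h1]
      have : p - un none = un none := by
        rw [h3]
        rw [sz, h1] at hs
        have h4 : ∀ i, p.2 i = 0 := fun i => by
          have := Finset.sum_eq_zero_iff.1 (show ∑ i, p.2 i = 0 by omega)
          exact this i (Finset.mem_univ i)
        apply Prod.ext
        · simp [un, h1]
        · funext i; simp [un, h4 i]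
      rw [this, ev_un, Nat.cast_ofNat, Algebra.smul_def, mul_one, map_ofNat]
    · rw [if_neg h1]
      by_cases h0 : p.1 = 0
      · rw [h0, Nat.cast_zero, zero_smul]
      · have h5 := sz_sub_un (c := p) (i := none) h0
        rw [ev_small (by omega), smul_zero]
        intro h6
        rw [h3] at h6
        have h7 := congrArg Prod.fst h6
        simp only [un] at h7
        omega
  · rw [if_neg hs]
    by_cases h0 : p.1 = 0
    · rw [h0, Nat.cast_zero, zero_smul, zero_smul]
    · rw [ev_big (by have := sz_sub_un (c := p) (i := none) h0; omega), h3]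

lemma CD_eq (i : Fin k) {f : Po k} (hf : f ∈ Bg k) : CD i f = Dl (some i) f := by
  apply derivation_eq_of_forall_mem_vars
  intro p hp
  have h2 : 2 ≤ sz p := (mem_supported.1 hf) (Finset.mem_coe.2 hp)
  rw [Dl_X, CD, mkDerivation_X, cnt_some]
  have h3 : p - un (some i) = (p.1, p.2 - Pi.single i 1) := by
    apply Prod.ext
    · simp [un]
    · rfl
  by_cases h0 : p.2 i = 0
  · rw [h0, Nat.cast_zero, zero_smul, zero_smul]
    simp
  · have h5 := sz_sub_un (c := p) (i := some i) h0
    have h6 : p.2 i ≤ ∑ j, p.2 j := Finset.single_le_sum (fun _ _ => Nat.zero_le _)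
      (Finset.mem_univ i)
    by_cases hs : sz p = 2
    · rw [if_pos hs]
      have hs' := hs
      rw [sz] at hs'
      by_cases h1 : p.1 = 1 ∧ p.2 i = 1
      · rw [if_pos h1, h1.2, Nat.cast_one, one_smul]
        have : p - un (some i) = un none := by
          have h8 : sz (p - un (some i)) = 1 := by omega
          rw [h3] at h8 ⊢
          rw [sz] at h8
          simp only at h8
          have h4 := Finset.sum_eq_zero_iff.1
            (show ∑ j, (p.2 - Pi.single i 1 : Fin k → ℕ) j = 0 by omega)
          apply Prod.ext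
          · exact h1.1
          · funext j
            exact h4 j (Finset.mem_univ j)
        rw [this, ev_un]
      · rw [if_neg h1, ev_small (by omega), smul_zero]
        intro h7
        rw [h3] at h7
        have h8 : p.1 = 1 := congrArg Prod.fst h7
        exact h1 ⟨h8, by omega⟩
    · rw [if_neg hs, ev_big (by omega), h3]

end Vale.Agent.P181.GN.H180
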